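import Vale.Agent.P232.Gap.Spec

/-!
# P232 gap, case D1: an integer checker

Integers are in units of `10⁻⁶`. A leaf is a rectangle of `(H, C)` with the end points of its knot
range. A knot value `s` is certified at the four corners by `H t + C ≤ c r`, `r² ≤ lmin(t)²`,
`c² + s² ≤ 1`; by Cauchy-Schwarz and the concavity of `lmin²` the interpolated value lies below
`sd` in the whole rectangle and between the knots.
-/

open MeasureTheory Set
open scoped Real

noncomputable section

namespace Vale.Agent.P232.Gap.KinkBand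

/-- The unit. -/
abbrev S : ℤ := 1000000

/-- Lower bound for `1/π`. -/
abbrev QL : ℤ := 318309

/-- Lower bound for `π`. -/
abbrev PL : ℤ := 3141592

/-- Integer square root by Newton steps (its values are checked). -/
def sqrtGo : ℕ → ℤ → ℤ → ℤ
  | 0, _, x => x
  | f + 1, n, x => if (x + n / x) / 2 < x then sqrtGo f n ((x + n / x) / 2) else x

/-- Integer square root of numbers up to `10¹²`. -/
def isq (n : ℤ) : ℤ := if n ≤ 0 then 0 else sqrtGo 50 n 1000001

/-- Position of the knots in their range. -/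
def fracs : List ℤ := [
  0, 621, 2530, 5866, 10849, 17765, 26950, 38764, 53565, 71688, 93414, 118948, 148401, 
  181773, 218942, 259662, 303565, 350169, 398892, 449074, 500000, 550926, 601108, 649831, 
  696435, 740338, 781058, 818227, 851599, 881052, 906586, 928312, 946435, 961236, 973050, 
  982235, 989151, 994134, 997470, 999379, 1000000]

/-- The knots of a range. -/
def knots (a b : ℤ) : List ℤ := fracs.map fun f => a + (b - a) * f / S

/-- Witness `r ≤ lmin t`. -/
def rAt (t : ℤ) : ℤ := isq (min (PL * min t (S - t)) (S * S))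

/-- The value `c` at a corner and a knot. -/
def cAt (H C t : ℤ) : ℤ := -((-(H * t + C * S)) / rAt t)

/-- The value `s` at a corner and a knot. -/
def sAt (H C t : ℤ) : ℤ := isq (S * S - cAt H C t * cAt H C t)

/-- The check at a corner and a knot. -/
def okAt (H C t : ℤ) : Bool :=
  let r := rAt t
  let c := cAt H C t
  let s := isq (S * S - c * c)
  decide (0 ≤ t) && decide (t ≤ S) && decide (0 ≤ c) && decide (0 ≤ s) &&
    decide (c * c + s * s ≤ S * S) && decide (r * r ≤ PL * min t (S - t)) &&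
    decide (r * r ≤ S * S) && decide (H * t + C * S ≤ c * r)

/-- Twice the trapezoid sum. -/
def trap2 (H C : ℤ) : List ℤ → ℤ
  | [] => 0
  | [_] => 0
  | t :: t' :: l => (t' - t) * (sAt H C t + sAt H C t') + trap2 H C (t' :: l)

/-- Strictly increasing. -/
def okInc : List ℤ → Bool
  | t :: t' :: l => decide (t < t') && okInc (t' :: l)
  | _ => true

/-- A rectangle. -/
structure Box where
  /-- lower `H` -/
  H0 : ℤ
  /-- upper `H` -/
  H1 : ℤ
  /-- lower `C` -/
  C0 : ℤ
  /-- upper `C` -/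
  C1 : ℤ

/-- The check at a corner. -/
def okCorner (H C : ℤ) (l : List ℤ) : Bool :=
  l.all (okAt H C) && decide (0 ≤ 2 * (C * S + H * QL - S * S) + trap2 H C l)

/-- The check of a rectangle. -/
def okBox (B : Box) (l : List ℤ) : Bool :=
  !l.isEmpty && okInc l && decide (B.H0 < B.H1) && decide (B.C0 < B.C1) && decide (0 ≤ B.H0) &&
    decide (0 ≤ B.C0) && okCorner B.H0 B.C0 l && okCorner B.H1 B.C0 l && okCorner B.H0 B.C1 l &&
    okCorner B.H1 B.C1 l

/-- A bisection tree; `true` splits `H`. -/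
inductive Tree : Type
  | l : ℤ → ℤ → Tree
  | n : Bool → ℤ → Tree → Tree → Tree

/-- The check of a tree. -/
def okTree : Tree → Box → Bool
  | .l a b, B => okBox B (knots a b)
  | .n true m s t, B => okTree s { B with H1 := m } && okTree t { B with H0 := m }
  | .n false m s t, B => okTree s { B with C1 := m } && okTree t { B with C0 := m }

/-- The real number of an integer in units of `10⁻⁶`. -/
def re (x : ℤ) : ℝ := (x : ℝ) / 1000000

/-- The square of `lmin`. -/
def m (t : ℝ) : ℝ := min (min (π * t) 1) (π * (1 - t))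

/-- Interpolation. -/
def lerp (r v v' : ℝ) : ℝ := (1 - r) * v + r * v'

/-- A certified value. -/
def Node (t q x s : ℝ) : Prop :=
  0 ≤ t ∧ t ≤ 1 ∧ 0 ≤ x ∧ 0 ≤ s ∧ x + s ^ 2 ≤ 1 ∧ q ≤ Real.sqrt x * Real.sqrt (m t)

theorem lmin_eq (t : ℝ) : lmin t = Real.sqrt (m t) := by
  have hm : Monotone Real.sqrt := fun _ _ h => Real.sqrt_le_sqrt h
  rw [lmin, m, hm.map_min, hm.map_min, Real.sqrt_one]

theorem m_nonneg {t : ℝ} (h0 : 0 ≤ t) (h1 : t ≤ 1) : 0 ≤ m t :=
  le_min (le_min (mul_nonneg Real.pi_pos.le h0) zero_le_one)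
    (mul_nonneg Real.pi_pos.le (sub_nonneg.2 h1))

theorem Node.combine {r t q x s t' q' x' s' : ℝ} (hr : r ∈ Icc (0 : ℝ) 1) (h : Node t q x s)
    (h' : Node t' q' x' s') :
    Node (lerp r t t') (lerp r q q') (lerp r x x') (lerp r s s') := by
  obtain ⟨ht0, ht1, hx, hs, hd, hq⟩ := h
  obtain ⟨ht0', ht1', hx', hs', hd', hq'⟩ := h'
  obtain ⟨r0, r1⟩ := hr
  have u : 0 ≤ 1 - r := sub_nonneg.2 r1
  unfold lerp
  refine ⟨by positivity, by nlinarith, by positivity, by positivity, ?_, ?_⟩
  · nlinarith [mul_nonneg (mul_nonneg u r0) (sq_nonneg (s - s'))]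
  have hmm := m_nonneg ht0 ht1
  have hmm' := m_nonneg ht0' ht1'
  have hconc : (1 - r) * m t + r * m t' ≤ m ((1 - r) * t + r * t') := by
    refine le_min (le_min ?_ ?_) ?_
    · calc (1 - r) * m t + r * m t' ≤ (1 - r) * (π * t) + r * (π * t') :=
            add_le_add (mul_le_mul_of_nonneg_left ((min_le_left _ _).trans (min_le_left _ _)) u)
              (mul_le_mul_of_nonneg_left ((min_le_left _ _).trans (min_le_left _ _)) r0)
        _ = π * ((1 - r) * t + r * t') := by ring
    · calc (1 - r) * m t + r * m t' ≤ (1 - r) * 1 + r * 1 :=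
            add_le_add (mul_le_mul_of_nonneg_left ((min_le_left _ _).trans (min_le_right _ _)) u)
              (mul_le_mul_of_nonneg_left ((min_le_left _ _).trans (min_le_right _ _)) r0)
        _ = 1 := by ring
    · calc (1 - r) * m t + r * m t' ≤ (1 - r) * (π * (1 - t)) + r * (π * (1 - t')) :=
            add_le_add (mul_le_mul_of_nonneg_left (min_le_right _ _) u)
              (mul_le_mul_of_nonneg_left (min_le_right _ _) r0)
        _ = π * (1 - ((1 - r) * t + r * t')) := by ring
  calc (1 - r) * q + r * q' ≤ (1 - r) * (Real.sqrt x * Real.sqrt (m t)) +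
        r * (Real.sqrt x' * Real.sqrt (m t')) :=
        add_le_add (mul_le_mul_of_nonneg_left hq u) (mul_le_mul_of_nonneg_left hq' r0)
    _ ≤ Real.sqrt ((1 - r) * x + r * x') * Real.sqrt ((1 - r) * m t + r * m t') := by
        conv_rhs => rw [← Real.sqrt_mul (by positivity)]
        refine Real.le_sqrt_of_sq_le ?_
        have e1 := Real.sq_sqrt hx
        have e2 := Real.sq_sqrt hx'
        have e3 := Real.sq_sqrt hmm
        have e4 := Real.sq_sqrt hmm'
        set a := Real.sqrt x
        set b := Real.sqrt x'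
        set c := Real.sqrt (m t)
        set d := Real.sqrt (m t')
        rw [← e1, ← e2, ← e3, ← e4]
        nlinarith [mul_nonneg (mul_nonneg u r0) (sq_nonneg (a * d - b * c))]
    _ ≤ _ := mul_le_mul_of_nonneg_left (Real.sqrt_le_sqrt hconc) (Real.sqrt_nonneg _)

theorem Node.le_sd {H C t x s : ℝ} (h : Node t (H * t + C) x s) : s ≤ sd H C t := by
  obtain ⟨-, -, hx, hs, hd, hq⟩ := h
  refine Real.le_sqrt_of_sq_le ((le_trans ?_ (le_max_right _ _)))
  have h0 : max 0 (H * t + C) / lmin t ≤ Real.sqrt x := by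
    rw [lmin_eq]
    rcases eq_or_lt_of_le (Real.sqrt_nonneg (m t)) with e | e
    · rw [← e, div_zero]; exact Real.sqrt_nonneg _
    · rw [div_le_iff₀ e]
      exact max_le (by positivity) hq
  have h1 : 0 ≤ max 0 (H * t + C) / lmin t := by
    rw [lmin_eq]
    positivity
  have := pow_le_pow_left₀ h1 h0 2
  rw [Real.sq_sqrt hx] at this
  linarith

theorem okAt_sound {H C t : ℤ} (h : okAt H C t = true) :
    Node (re t) (re H * re t + re C) (re (cAt H C t) ^ 2) (re (sAt H C t)) := by
  simp only [okAt, Bool.and_eq_true, decide_eq_true_eq] at h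
  obtain ⟨⟨⟨⟨⟨⟨⟨h1, h2⟩, h3⟩, h4⟩, h5⟩, h6⟩, h7⟩, h8⟩ := h
  set r := rAt t
  set c := cAt H C t
  have r1 : (0 : ℝ) ≤ t := by exact_mod_cast h1
  have r2 : (t : ℝ) ≤ 1000000 := by exact_mod_cast h2
  have r3 : (0 : ℝ) ≤ c := by exact_mod_cast h3
  have r4 : (0 : ℝ) ≤ sAt H C t := by exact_mod_cast h4
  have r5 : (c : ℝ) * c + (sAt H C t : ℝ) * sAt H C t ≤ 1000000 * 1000000 := by exact_mod_cast h5
  have r6 : (r : ℝ) * r ≤ 3141592 * min (t : ℝ) (1000000 - t) := by exact_mod_cast h6
  have r7 : (r : ℝ) * r ≤ 1000000 * 1000000 := by exact_mod_cast h7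
  have r8 : (H : ℝ) * t + (C : ℝ) * 1000000 ≤ c * r := by exact_mod_cast h8
  simp only [re]
  refine ⟨by positivity, by linarith, sq_nonneg _, by positivity, by linarith, ?_⟩
  rw [Real.sqrt_sq (by positivity)]
  have hr : (r : ℝ) / 1000000 ≤ Real.sqrt (m ((t : ℝ) / 1000000)) := by
    refine Real.le_sqrt_of_sq_le (le_min (le_min ?_ ?_) ?_)
    · nlinarith [r6.trans (mul_le_mul_of_nonneg_left (min_le_left _ _) (by norm_num)),
        mul_nonneg r1 (sub_nonneg.2 Real.pi_gt_d6.le)]
    · nlinarith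
    · nlinarith [r6.trans (mul_le_mul_of_nonneg_left (min_le_right _ _) (by norm_num)),
        mul_nonneg (sub_nonneg.2 r2) (sub_nonneg.2 Real.pi_gt_d6.le)]
  calc (H : ℝ) / 1000000 * ((t : ℝ) / 1000000) + (C : ℝ) / 1000000
      ≤ (c : ℝ) / 1000000 * ((r : ℝ) / 1000000) := by linarith
    _ ≤ _ := mul_le_mul_of_nonneg_left hr (by positivity)

theorem sd_nonneg (H C A : ℝ) : 0 ≤ sd H C A := Real.sqrt_nonneg _

theorem integrable_sd (H C a b : ℝ) : IntervalIntegrable (sd H C) volume a b := by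
  rw [intervalIntegrable_iff]
  have hm : Measurable (sd H C) := by unfold sd lmin; fun_prop
  refine IntegrableOn.of_bound measure_Ioc_lt_top hm.aestronglyMeasurable 1
    (Filter.Eventually.of_forall fun x => ?_)
  rw [Real.norm_of_nonneg (sd_nonneg _ _ _), sd, Real.sqrt_le_one]
  exact max_le zero_le_one (sub_le_self _ (sq_nonneg _))

/-- Twice the trapezoid sum of an interpolated profile. -/
def trapR (f : ℤ → ℝ) : List ℤ → ℝ
  | [] => 0
  | [_] => 0
  | t :: t' :: l => (re t' - re t) * (f t + f t') + trapR f (t' :: l)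

/-- The last knot. -/
def lastT : ℤ → List ℤ → ℤ
  | t, [] => t
  | _, t' :: l => lastT t' l

theorem re_le {x y : ℤ} (h : x ≤ y) : re x ≤ re y := by
  unfold re
  gcongr

theorem le_lastT : ∀ (l : List ℤ) (t : ℤ), okInc (t :: l) = true → t ≤ lastT t l
  | [], _, _ => le_rfl
  | t' :: l, t, h => by
    simp only [okInc, Bool.and_eq_true, decide_eq_true_eq] at h
    exact h.1.le.trans (le_lastT l t' h.2)

theorem trapR_le {H C : ℝ} {f x : ℤ → ℝ} : ∀ (l : List ℤ) (t : ℤ), okInc (t :: l) = true →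
    (∀ k ∈ t :: l, Node (re k) (H * re k + C) (x k) (f k)) →
      trapR f (t :: l) / 2 ≤ ∫ A in re t..re (lastT t l), sd H C A
  | [], t, _, _ => by simp [trapR, lastT]
  | t' :: l, t, h, hn => by
    simp only [okInc, Bool.and_eq_true, decide_eq_true_eq] at h
    have ih := trapR_le l t' h.2 fun k hk => hn k (List.mem_cons_of_mem _ hk)
    have hlt : re t < re t' := by
      unfold re
      gcongr
      exact_mod_cast h.1
    rw [lastT, ← intervalIntegral.integral_add_adjacent_intervals (integrable_sd H C _ (re t'))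
      (integrable_sd H C _ _), trapR, add_div]
    refine add_le_add ?_ ih
    have n0 := hn t (by simp)
    have n1 := hn t' (by simp)
    set a := re t
    set b := re t'
    set k := (f t' - f t) / (b - a)
    have hd : 0 < b - a := sub_pos.2 hlt
    have e : ∫ A in a..b, (f t - k * a + k * A) = (b - a) * (f t + f t') / 2 := by
      rw [intervalIntegral.integral_add intervalIntegrable_const
        ((by fun_prop : Continuous fun A : ℝ => k * A).intervalIntegrable _ _),
        intervalIntegral.integral_const_mul, intervalIntegral.integral_const, integral_id]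
      simp only [k, smul_eq_mul]
      field_simp
      ring
    rw [← e]
    refine intervalIntegral.integral_mono_on hlt.le ((by fun_prop : Continuous fun A : ℝ =>
      f t - k * a + k * A).intervalIntegrable _ _) (integrable_sd H C _ _) fun A hA => ?_
    have hr : (A - a) / (b - a) ∈ Icc (0 : ℝ) 1 :=
      ⟨div_nonneg (sub_nonneg.2 hA.1) hd.le, (div_le_one hd).2 (by linarith [hA.2])⟩
    have hc := n0.combine hr n1
    have e1 : lerp ((A - a) / (b - a)) a b = A := by unfold lerp; field_simp; ring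
    have e2 : lerp ((A - a) / (b - a)) (H * a + C) (H * b + C) = H * A + C := by
      unfold lerp; field_simp; ring
    have e3 : lerp ((A - a) / (b - a)) (f t) (f t') = f t - k * a + k * A := by
      simp only [lerp, k]; field_simp; ring
    rw [e1, e2] at hc
    exact e3 ▸ hc.le_sd

theorem trapR_lerp (r : ℝ) (f g : ℤ → ℝ) : ∀ l : List ℤ,
    trapR (fun t => lerp r (f t) (g t)) l = lerp r (trapR f l) (trapR g l)
  | [] => by simp [trapR, lerp]
  | [_] => by simp [trapR, lerp]
  | t :: t' :: l => by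
    simp only [trapR]
    rw [trapR_lerp r f g (t' :: l)]
    simp only [lerp]
    ring

theorem trap2_eq (H C : ℤ) : ∀ l : List ℤ,
    trapR (fun t => re (sAt H C t)) l = (trap2 H C l : ℝ) / 1000000 ^ 2
  | [] => by simp [trapR, trap2]
  | [_] => by simp [trapR, trap2]
  | t :: t' :: l => by
    simp only [trapR, trap2]
    rw [trap2_eq H C (t' :: l)]
    simp only [re]
    push_cast
    ring

theorem okCorner_sound {H C : ℤ} {l : List ℤ} (h : okCorner H C l = true) :
    (∀ k ∈ l, Node (re k) (re H * re k + re C) (re (cAt H C k) ^ 2) (re (sAt H C k))) ∧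
      1 ≤ re C + re H * re QL + trapR (fun t => re (sAt H C t)) l / 2 := by
  simp only [okCorner, Bool.and_eq_true, List.all_eq_true, decide_eq_true_eq] at h
  refine ⟨fun k hk => okAt_sound (h.1 k hk), ?_⟩
  rw [trap2_eq]
  have h' : (0 : ℝ) ≤ 2 * ((C : ℝ) * 1000000 + H * 318309 - 1000000 * 1000000) + trap2 H C l := by
    exact_mod_cast h.2
  simp only [re, QL]
  push_cast
  linarith

theorem okBox_sound_lt {B : Box} {l : List ℤ} (h : okBox B l = true) {H C : ℝ}
    (hH : H ∈ Icc (re B.H0) (re B.H1)) (hC : C ∈ Icc (re B.C0) (re B.C1)) :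
    0 < H → 1 - H / π < C + phi H C := by
  intro hH0'
  simp only [okBox, Bool.and_eq_true, decide_eq_true_eq] at h
  obtain ⟨⟨⟨⟨⟨⟨⟨⟨⟨hne, hinc⟩, hH01⟩, hC01⟩, hH0⟩, -⟩, k00⟩, k10⟩, k01⟩, k11⟩ := h
  rcases l with _ | ⟨t, l⟩
  · simp at hne
  obtain ⟨n00, b00⟩ := okCorner_sound k00
  obtain ⟨n10, b10⟩ := okCorner_sound k10
  obtain ⟨n01, b01⟩ := okCorner_sound k01
  obtain ⟨n11, b11⟩ := okCorner_sound k11
  have dH : 0 < re B.H1 - re B.H0 := sub_pos.2 (by unfold re; gcongr)
  have dC : 0 < re B.C1 - re B.C0 := sub_pos.2 (by unfold re; gcongr)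
  set ρ := (H - re B.H0) / (re B.H1 - re B.H0) with hρ
  set σ := (C - re B.C0) / (re B.C1 - re B.C0) with hσ
  have mρ : ρ ∈ Icc (0 : ℝ) 1 :=
    ⟨div_nonneg (sub_nonneg.2 hH.1) dH.le, (div_le_one dH).2 (by linarith [hH.2])⟩
  have mσ : σ ∈ Icc (0 : ℝ) 1 :=
    ⟨div_nonneg (sub_nonneg.2 hC.1) dC.le, (div_le_one dC).2 (by linarith [hC.2])⟩
  have eH : lerp ρ (re B.H0) (re B.H1) = H := by simp only [lerp, hρ]; field_simp; ring
  have eC : lerp σ (re B.C0) (re B.C1) = C := by simp only [lerp, hσ]; field_simp; ring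
  set x : ℤ → ℝ := fun k =>
    lerp σ (lerp ρ (re (cAt B.H0 B.C0 k) ^ 2) (re (cAt B.H1 B.C0 k) ^ 2))
      (lerp ρ (re (cAt B.H0 B.C1 k) ^ 2) (re (cAt B.H1 B.C1 k) ^ 2))
  set f : ℤ → ℝ := fun k =>
    lerp σ (lerp ρ (re (sAt B.H0 B.C0 k)) (re (sAt B.H1 B.C0 k)))
      (lerp ρ (re (sAt B.H0 B.C1 k)) (re (sAt B.H1 B.C1 k)))
  have hn : ∀ k ∈ t :: l, Node (re k) (H * re k + C) (x k) (f k) := fun k hk => by
    have := ((n00 k hk).combine mρ (n10 k hk)).combine mσ ((n01 k hk).combine mρ (n11 k hk))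
    have e1 : lerp σ (lerp ρ (re k) (re k)) (lerp ρ (re k) (re k)) = re k := by
      simp only [lerp]; ring
    have e2 : lerp σ (lerp ρ (re B.H0 * re k + re B.C0) (re B.H1 * re k + re B.C0))
        (lerp ρ (re B.H0 * re k + re B.C1) (re B.H1 * re k + re B.C1)) = H * re k + C := by
      rw [← eH, ← eC]; simp only [lerp]; ring
    rw [e1, e2] at this
    exact this
  have hi := trapR_le l t hinc hn
  have hlast : lastT t l ∈ t :: l := by
    clear hinc hn hi n00 n10 n01 n11 b00 b10 b01 b11 k00 k10 k01 k11 hne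
    induction l generalizing t with
    | nil => simp [lastT]
    | cons t' l ih => exact List.mem_cons_of_mem _ (ih t')
  have hphi : ∫ A in re t..re (lastT t l), sd H C A ≤ phi H C :=
    intervalIntegral.integral_mono_interval (hn t (by simp)).1 (re_le (le_lastT l t hinc))
      (hn _ hlast).2.1 (Filter.Eventually.of_forall (sd_nonneg H C)) (integrable_sd _ _ _ _)
  have htr : trapR f (t :: l) =
      lerp σ (lerp ρ (trapR (fun k => re (sAt B.H0 B.C0 k)) (t :: l))
          (trapR (fun k => re (sAt B.H1 B.C0 k)) (t :: l)))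
        (lerp ρ (trapR (fun k => re (sAt B.H0 B.C1 k)) (t :: l))
          (trapR (fun k => re (sAt B.H1 B.C1 k)) (t :: l))) := by
    simp only [f, trapR_lerp]
  have u0 : 0 ≤ 1 - ρ := sub_nonneg.2 mρ.2
  have v0 : 0 ≤ 1 - σ := sub_nonneg.2 mσ.2
  have hsum : 1 ≤ C + H * re QL + trapR f (t :: l) / 2 := by
    rw [htr, ← eH, ← eC]
    simp only [lerp]
    nlinarith [mul_le_mul_of_nonneg_left b00 (mul_nonneg v0 u0),
      mul_le_mul_of_nonneg_left b10 (mul_nonneg v0 mρ.1),
      mul_le_mul_of_nonneg_left b01 (mul_nonneg mσ.1 u0),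
      mul_le_mul_of_nonneg_left b11 (mul_nonneg mσ.1 mρ.1)]
  have hq : H * re QL < H / π := by
    rw [lt_div_iff₀ Real.pi_pos, mul_assoc]
    refine mul_lt_of_lt_one_right hH0' ?_
    simp only [re, QL]
    norm_num
    linarith [Real.pi_lt_d6]
  linarith

theorem okBox_sound {B : Box} {l : List ℤ} (h : okBox B l = true) {H C : ℝ}
    (hH : H ∈ Icc (re B.H0) (re B.H1)) (hC : C ∈ Icc (re B.C0) (re B.C1)) (h0 : 0 < H) :
    1 - H / π ≤ C + phi H C :=
  (okBox_sound_lt h hH hC h0).le

/-- The strict form of `okTree_sound`. -/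
theorem okTree_sound_lt : ∀ (T : Tree) (B : Box), okTree T B = true → ∀ H C : ℝ, 0 < H →
    H ∈ Icc (re B.H0) (re B.H1) → C ∈ Icc (re B.C0) (re B.C1) → 1 - H / π < C + phi H C
  | .l _ _, _, h => fun _ _ h0 hH hC => okBox_sound_lt h hH hC h0
  | .n true k s t, B, h => by
    intro H C h0 hH hC
    simp only [okTree, Bool.and_eq_true] at h
    rcases le_total H (re k) with e | e
    · exact okTree_sound_lt s _ h.1 H C h0 ⟨hH.1, e⟩ hC
    · exact okTree_sound_lt t _ h.2 H C h0 ⟨e, hH.2⟩ hC
  | .n false k s t, B, h => by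
    intro H C h0 hH hC
    simp only [okTree, Bool.and_eq_true] at h
    rcases le_total C (re k) with e | e
    · exact okTree_sound_lt s _ h.1 H C h0 hH ⟨hC.1, e⟩
    · exact okTree_sound_lt t _ h.2 H C h0 hH ⟨e, hC.2⟩

theorem okTree_sound (T : Tree) (B : Box) (h : okTree T B = true) (H C : ℝ) (h0 : 0 < H)
    (hH : H ∈ Icc (re B.H0) (re B.H1)) (hC : C ∈ Icc (re B.C0) (re B.C1)) :
    1 - H / π ≤ C + phi H C :=
  (okTree_sound_lt T B h H C h0 hH hC).le

end Vale.Agent.P232.Gap.KinkBand
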